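import Vale.Agent.P216.B7H707.Lift

/-!
# P216-B7, Z5: the classes of degree one of the large slabs are zero on the small slabs (helper707)
-/

set_option linter.all false

open Set Topology unitInterval

namespace Vale.Agent.P216.B7H707

open Vale.Agent.P216.B7 Vale.Agent.P216 Vale.Agent.P216.Sl Vale.Agent.P216.PS

variable {M : Type} [MetricSpace M] [CompactSpace M]

theorem isClosed_Xt (h : C(M, Circle)) : IsClosed (Xt h) := by
  have h1 : Continuous fun p : M × ℝ => h p.1 := h.continuous.comp continuous_fst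
  have h2 : Continuous fun p : M × ℝ => ex p.2 := by
    unfold ex
    exact Circle.exp.continuous.comp (continuous_const.mul continuous_snd)
  exact isClosed_eq h1 h2

theorem isCompact_Slb (h : C(M, Circle)) (R : ℝ) : IsCompact (Slb h R) := by
  have h1 : IsCompact ((univ : Set M) ×ˢ Icc (-R) R) := isCompact_univ.prod isCompact_Icc
  refine h1.of_isClosed_subset ?_ ?_
  · exact (isClosed_Xt h).inter (isClosed_le (continuous_abs.comp continuous_snd) continuous_const)
  · rintro p ⟨-, hp⟩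
    exact ⟨mem_univ _, abs_le.1 hp⟩

/-- the topological part -/
theorem exists_paths (ρ : ℝ) (hρ : 0 < ρ) (hS : LS.UniqSeg M ρ) (h : C(M, Circle))
    [SimplyConnectedSpace (Xt h)] (R : ℝ) :
    ∃ (R' r : ℝ) (ρ₁ : ℝ), R + 1 ≤ R' ∧ 0 < r ∧ 3 * r ≤ ρ₁ / 2 ∧ 3 * r ≤ 1 / 4 ∧ ρ₁ ≤ ρ ∧
      (∀ z z' : M, dist z z' < ρ₁ →
        |Complex.arg ((h z / h z' : Circle) : ℂ)| < Real.pi / 4) ∧
      ∃ (A : Set (M × ℝ)) (x₀ : Xt h) (P : ∀ a : Xt h, Path x₀ a), A ⊆ Slb h R ∧
        (∀ x ∈ Slb h R, ∃ a ∈ A, dist x a < r) ∧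
        ∀ a b : Xt h, a.1 ∈ A → b.1 ∈ A → dist a.1 b.1 < 3 * r →
          ∃ S : Path a b, (∀ t, (S t).1 = sp h a.1 b.1 t) ∧
          ∃ H : ((P a).trans S).Homotopy (P b), ∀ st, (H st).1 ∈ Slb h R' := by
  classical
  obtain ⟨δ, hδ, hn⟩ := near h (η := Real.pi / 4) (by positivity)
  set ρ₁ := min ρ δ with hρ₁
  have hρ₁0 : 0 < ρ₁ := lt_min hρ hδ
  have hn' : ∀ z z' : M, dist z z' < ρ₁ →
      |Complex.arg ((h z / h z' : Circle) : ℂ)| < Real.pi / 4 :=
    fun z z' hz => hn z z' (hz.trans_le (min_le_right _ _))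
  set r := min (ρ₁ / 6) (1 / 12) with hr
  have hr0 : 0 < r := lt_min (by positivity) (by norm_num)
  have hr1 : 3 * r ≤ ρ₁ / 2 := by
    have : r ≤ ρ₁ / 6 := min_le_left _ _
    linarith
  have hr2 : 3 * r ≤ 1 / 4 := by
    have : r ≤ 1 / 12 := min_le_right _ _
    linarith
  obtain ⟨A, hAs, hAf, hA⟩ := (isCompact_Slb h R).finite_cover_balls hr0
  obtain ⟨x₀⟩ : Nonempty (Xt h) := inferInstance
  set P : ∀ a : Xt h, Path x₀ a := fun a => (PathConnectedSpace.joined x₀ a).somePath with hP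
  -- the short segments
  have hseg : ∀ a b : Xt h, dist a.1 b.1 < 3 * r → ∃ S : Path a b, ∀ t, (S t).1 = sp h a.1 b.1 t := by
    intro a b hab
    have h1 : dist a.1.1 b.1.1 < ρ₁ / 2 :=
      ((le_max_left _ _).trans_lt (by rwa [Prod.dist_eq] at hab)).trans_le hr1
    have h2 : |a.1.2 - b.1.2| < 1 / 4 := by
      have : dist a.1.2 b.1.2 < 3 * r := (le_max_right _ _).trans_lt (by rwa [Prod.dist_eq] at hab)
      rw [Real.dist_eq] at this
      linarith
    obtain ⟨hc, -⟩ := sp_facts (h := h) hS (min_le_left ρ δ) hn' h1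
    refine ⟨⟨⟨fun t => ⟨sp h a.1 b.1 t, sp_mem h a.2 _ _⟩, hc.subtype_mk _⟩, ?_, ?_⟩,
      fun t => rfl⟩
    · exact Subtype.ext (sp_zero h _ _)
    · exact Subtype.ext (sp_one hn' a.2 b.2 (by linarith) h2)
  have hex : ∀ q : (M × ℝ) × (M × ℝ), ∃ B : ℝ, ∀ (a b : Xt h), a.1 = q.1 → b.1 = q.2 →
      dist a.1 b.1 < 3 * r → ∃ S : Path a b, (∀ t, (S t).1 = sp h a.1 b.1 t) ∧
        ∃ H : ((P a).trans S).Homotopy (P b), ∀ st, |(H st).1.2| ≤ B := by
    intro q
    by_cases hq : ∃ a b : Xt h, a.1 = q.1 ∧ b.1 = q.2 ∧ dist a.1 b.1 < 3 * r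
    · obtain ⟨a, b, ha, hb, hab⟩ := hq
      obtain ⟨S, hS'⟩ := hseg a b hab
      obtain ⟨H⟩ := SimplyConnectedSpace.paths_homotopic ((P a).trans S) (P b)
      have hcont : Continuous fun st : I × I => |(H st).1.2| :=
        continuous_abs.comp (continuous_snd.comp (continuous_subtype_val.comp H.continuous))
      obtain ⟨B, hB⟩ := (isCompact_range hcont).bddAbove
      refine ⟨B, fun a' b' ha' hb' _ => ?_⟩
      obtain rfl : a = a' := Subtype.ext (ha.trans ha'.symm)
      obtain rfl : b = b' := Subtype.ext (hb.trans hb'.symm)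
      exact ⟨S, hS', H, fun st => hB (mem_range_self st)⟩
    · exact ⟨0, fun a b ha hb hab => absurd ⟨a, b, ha, hb, hab⟩ hq⟩
  choose B hB using hex
  obtain ⟨B', hB'⟩ := ((hAf.prod hAf).image B).bddAbove
  refine ⟨max (R + 1) B', r, ρ₁, le_max_left _ _, hr0, hr1, hr2, min_le_left _ _, hn', A, x₀, P,
    hAs, ?_, ?_⟩
  · intro x hx
    obtain ⟨a, ha, hxa⟩ := mem_iUnion₂.1 (hA hx)
    exact ⟨a, ha, hxa⟩
  · intro a b ha hb hab
    obtain ⟨S, hS1, H, hH⟩ := hB (a.1, b.1) a b rfl rfl hab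
    refine ⟨S, hS1, H, fun st => ⟨(H st).2, ?_⟩⟩
    exact (hH st).trans ((hB' ⟨(a.1, b.1), ⟨ha, hb⟩, rfl⟩).trans (le_max_right _ _))

end Vale.Agent.P216.B7H707

namespace Vale.Agent.P216.B7

open Vale.Agent.P216 Vale.Agent.P216.Sl Vale.Agent.P216.PS B7H707

theorem z5Goal : Z5Goal := by
  intro M _ _ ρ hρ hS h _ k _ R
  classical
  obtain ⟨R', r, ρ₁, hRR, hr, hr1, hr2, hρ₁, hn, A, x₀, P, hAs, hA, hP⟩ :=
    exists_paths ρ hρ hS h R
  refine ⟨R', by linarith, fun f₀ hf₀ => ?_⟩
  obtain ⟨ε, hε, hf₀⟩ := hf₀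
  set f : M × ℝ → M × ℝ → k := fun x y => f₀ [x, y] with hf
  have hcoc : Coc1 (Slb h R') ε f := by
    intro x hx y hy z hz h1 h2 h3
    have hs : SmL (Slb h R') ε [x, y, z] := by
      constructor
      · intro a ha
        simp only [List.mem_cons, List.not_mem_nil, or_false] at ha
        rcases ha with rfl | rfl | rfl <;> assumption
      · intro a ha b hb
        simp only [List.mem_cons, List.not_mem_nil, or_false] at ha hb
        rcases ha with rfl | rfl | rfl <;> rcases hb with rfl | rfl | rfl <;>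
          first
            | (rw [dist_self]; exact hε)
            | assumption
            | (rw [dist_comm]; assumption)
    have h4 := hf₀ [x, y, z] rfl hs
    rw [N929.dl_cons, N929.dl_cons, N929.dl_cons, N929.dl_nil] at h4
    simp only [hf]
    linear_combination h4
  -- close points
  have hcl : ∀ {x y : M × ℝ}, dist x y < 3 * r → dist x.1 y.1 < ρ₁ / 2 ∧ |x.2 - y.2| < 1 / 4 := by
    intro x y hxy
    rw [Prod.dist_eq] at hxy
    refine ⟨((le_max_left _ _).trans_lt hxy).trans_le hr1, ?_⟩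
    rw [← Real.dist_eq]
    exact ((le_max_right _ _).trans_lt hxy).trans_le hr2
  have hmem : ∀ {x : M × ℝ} {u : M × ℝ}, x ∈ Slb h R → u ∈ Xt h → |u.2 - x.2| < 1 / 8 →
      u ∈ Slb h R' := by
    intro x u hx hu hux
    refine ⟨hu, ?_⟩
    have h1 : |u.2| ≤ |u.2 - x.2| + |x.2| := by
      have := abs_add_le (u.2 - x.2) x.2
      rwa [sub_add_cancel] at this
    have := hx.2
    linarith
  have hsp : ∀ {x y : M × ℝ}, x ∈ Slb h R → dist x y < 3 * r → Continuous (sp h x y) ∧
      ∀ t, sp h x y t ∈ Slb h R' := by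
    intro x y hx hxy
    obtain ⟨h1, h2⟩ := sp_facts (h := h) hS hρ₁ hn (hcl hxy).1
    exact ⟨h1, fun t => hmem hx (sp_mem h hx.1 _ _) (h2 t)⟩
  -- the integrals over the short segments
  have hjS : ∀ q : (M × ℝ) × (M × ℝ), ∃ c : k, q.1 ∈ Slb h R → dist q.1 q.2 < 3 * r →
      IsInt f (sp h q.1 q.2) c := by
    intro q
    by_cases hq : q.1 ∈ Slb h R ∧ dist q.1 q.2 < 3 * r
    · obtain ⟨h1, h2⟩ := hsp hq.1 hq.2
      obtain ⟨c, hc⟩ := exists_isInt hε hcoc h1 h2
      exact ⟨c, fun _ _ => hc⟩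
    · exact ⟨0, fun h1 h2 => absurd ⟨h1, h2⟩ hq⟩
  choose jS hjS using hjS
  -- the triangle rule
  have htri : ∀ a x y : M × ℝ, a ∈ Slb h R → x ∈ Slb h R → dist a x < 3 * r →
      dist x y < 3 * r → dist a y < 3 * r → jS (a, x) + jS (x, y) = jS (a, y) := by
    intro a x y ha hx h1 h2 h3
    obtain ⟨c1, c2⟩ := hcl h1
    obtain ⟨c3, c4⟩ := hcl h2
    obtain ⟨e1, e2, e3, e4⟩ := Fa_sides (h := h) hS hρ₁ hn ha.1 hx.1 c3 c1 c2
    obtain ⟨hF, hF2, -⟩ := continuous_Fa (h := h) hS hρ₁ hn c3 c1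
    have := isInt_square hε hcoc hF (fun p => hmem ha (ex_lf h ha.1 _).symm (hF2 p))
      (a := jS (a, x)) (b := jS (x, y)) (c := 0) (d := jS (a, y)) ?_ ?_ ?_ ?_
    · rw [this, zero_add]
    · rw [funext e1]; exact hjS (a, x) ha h1
    · rw [funext e4]; exact hjS (x, y) hx h2
    · rw [funext e3]
      exact isInt_const hε hcoc ⟨ha.1, ha.2.trans (by linarith)⟩
    · rw [funext e2]; exact hjS (a, y) ha h3
  -- the integrals over the long paths
  have hjP : ∀ a : M × ℝ, ∃ c : k, ∀ ha : a ∈ A, IsInt f (fun t => (P ⟨a, (hAs ha).1⟩ t).1) c := by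
    intro a
    by_cases ha : a ∈ A
    · obtain ⟨S, -, H, hH⟩ := hP ⟨a, (hAs ha).1⟩ ⟨a, (hAs ha).1⟩ ha ha (by
        rw [dist_self]; positivity)
      obtain ⟨c, hc⟩ := exists_isInt hε hcoc
        (γ := fun t => (P ⟨a, (hAs ha).1⟩ t).1)
        (continuous_subtype_val.comp (P ⟨a, (hAs ha).1⟩).continuous) (fun t => by
          have := hH (1, t)
          rwa [H.apply_one] at this)
      exact ⟨c, fun _ => hc⟩
    · exact ⟨0, fun h => absurd h ha⟩
  choose jP hjP using hjP
  have hnet : ∀ a b : M × ℝ, a ∈ A → b ∈ A → dist a b < 3 * r → jP a + jS (a, b) = jP b := by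
    intro a b ha hb hab
    obtain ⟨S, hS1, H, hH⟩ := hP ⟨a, (hAs ha).1⟩ ⟨b, (hAs hb).1⟩ ha hb hab
    have hcont : Continuous fun st : I × I => (H st).1 :=
      continuous_subtype_val.comp H.continuous
    obtain ⟨c, hc⟩ := exists_isInt hε hcoc
      (γ := fun t => (((P ⟨a, (hAs ha).1⟩).trans S) t).1)
      (continuous_subtype_val.comp ((P ⟨a, (hAs ha).1⟩).trans S).continuous) (fun t => by
        have := hH (0, t)
        rwa [H.apply_zero] at this)
    have e1 := isInt_trans _ _ Subtype.val hc (hjP a ha) (b := jS (a, b)) (by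
      rw [show (fun t => (S t).1) = sp h a b from funext hS1]
      exact hjS (a, b) (hAs ha) hab)
    have e2 := isInt_square hε hcoc hcont hH (a := c) (b := 0) (c := 0) (d := jP b) ?_ ?_ ?_ ?_
    · rw [← e1]
      linear_combination e2
    · simp only [H.apply_zero]
      exact hc
    · have : ∀ s : I, (H (s, 1)).1 = b := fun s => congrArg Subtype.val (H.target s)
      simp only [this]
      exact isInt_const hε hcoc ⟨(hAs hb).1, (hAs hb).2.trans (by linarith)⟩
    · have : ∀ s : I, (H (s, 0)).1 = x₀.1 := fun s => congrArg Subtype.val (H.source s)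
      simp only [this]
      have h3 := hH (0, 0)
      rw [H.source] at h3
      exact isInt_const hε hcoc h3
    · simp only [H.apply_one]
      exact hjP b hb
  -- the choice of a point of the net
  have hα : ∀ x : M × ℝ, ∃ a : M × ℝ, x ∈ Slb h R → a ∈ A ∧ dist x a < r := by
    intro x
    by_cases hx : x ∈ Slb h R
    · obtain ⟨a, ha, hxa⟩ := hA x hx
      exact ⟨a, fun _ => ⟨ha, hxa⟩⟩
    · exact ⟨x, fun h => absurd h hx⟩
  choose α hα using hα
  -- short segments are very short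
  obtain ⟨δ₁, hδ₁, hn1⟩ := near h (η := ε) hε
  set δ := min (min δ₁ ε) r with hδ
  have hδ0 : 0 < δ := lt_min (lt_min hδ₁ hε) hr
  have hshort : ∀ x y : M × ℝ, x ∈ Slb h R → y ∈ Slb h R → dist x y < δ → jS (x, y) = f x y := by
    intro x y hx hy hxy
    have h3 : dist x y < 3 * r := by
      have : δ ≤ r := min_le_right _ _
      linarith
    have hxy1 : dist x.1 y.1 ≤ dist x y := by rw [Prod.dist_eq]; exact le_max_left _ _
    have hxδ : dist x.1 y.1 < δ₁ :=
      (hxy1.trans_lt hxy).trans_le ((min_le_left _ _).trans (min_le_left _ _))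
    have hxε : dist x.1 y.1 < ε :=
      (hxy1.trans_lt hxy).trans_le ((min_le_left _ _).trans (min_le_right _ _))
    have hxρ : dist x.1 y.1 < ρ := by
      have := (hcl h3).1
      have := dist_nonneg (x := x.1) (y := y.1)
      linarith
    obtain ⟨h1, h2⟩ := hsp hx h3
    have h5 : ∀ t, |(sp h x y t).2 - x.2| < ε / 6 := by
      intro t
      have h6 : dist (LS.seg x.1 y.1 t) x.1 < δ₁ := by
        rw [dist_comm, LS.dist_left_seg hS hxρ t.2]
        exact (mul_le_of_le_one_left dist_nonneg t.2.2).trans_lt hxδ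
      have h7 := hn1 _ _ h6
      have h8 : (sp h x y t).2 - x.2 = Complex.arg
          ((h (LS.seg x.1 y.1 t) / h x.1 : Circle) : ℂ) / (2 * Real.pi) := by
        simp only [sp, lf]
        ring
      rw [h8, abs_div, abs_of_pos (by positivity : (0 : ℝ) < 2 * Real.pi),
        div_lt_iff₀ (by positivity)]
      have := Real.pi_gt_three
      nlinarith
    have h6 : ∀ s t, dist (sp h x y s) (sp h x y t) < ε := by
      intro s t
      rw [Prod.dist_eq]
      refine max_lt ?_ ?_
      · show dist (LS.seg x.1 y.1 s) (LS.seg x.1 y.1 t) < ε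
        rw [LS.dist_seg_seg hS hxρ s.2 t.2]
        have h7 : |(s : ℝ) - t| ≤ 1 := by
          rw [abs_le]
          exact ⟨by linarith [s.2.1, t.2.2], by linarith [s.2.2, t.2.1]⟩
        exact (mul_le_of_le_one_left dist_nonneg h7).trans_lt hxε
      · rw [Real.dist_eq]
        have h7 : (sp h x y s).2 - (sp h x y t).2 =
            ((sp h x y s).2 - x.2) - ((sp h x y t).2 - x.2) := by ring
        rw [h7]
        have := abs_sub ((sp h x y s).2 - x.2) ((sp h x y t).2 - x.2)
        have := h5 s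
        have := h5 t
        linarith
    have h7 := (hjS (x, y) hx h3).unique (isInt_short hε hcoc h2 h6)
    rw [h7, sp_zero, sp_one hn hx.1 hy.1 (by
      have := (hcl h3).1
      have := dist_nonneg (x := x.1) (y := y.1)
      linarith) (hcl h3).2]
  refine ⟨fun l => match l with
    | [x] => jP (α x) + jS (α x, x)
    | _ => 0, fun h0 => absurd h0 one_ne_zero, δ, hδ0, fun l hl hs => ?_⟩
  obtain ⟨x, y, rfl⟩ := List.length_eq_two.1 hl
  have hx : x ∈ Slb h R := hs.1 x (by simp)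
  have hy : y ∈ Slb h R := hs.1 y (by simp)
  have hxy : dist x y < δ := hs.2 x (by simp) y (by simp)
  have hxyr : dist x y < r := hxy.trans_le (min_le_right _ _)
  obtain ⟨ha, hxa⟩ := hα x hx
  obtain ⟨hb, hyb⟩ := hα y hy
  have hay : dist (α x) y < 2 * r := by
    have := dist_triangle (α x) x y
    rw [dist_comm (α x) x] at this
    linarith
  have hab : dist (α x) (α y) < 3 * r := by
    have := dist_triangle (α x) y (α y)
    linarith
  have t1 := htri (α x) x y (hAs ha) hx (by rw [dist_comm]; linarith) (by linarith) (by linarith)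
  have t2 := htri (α x) (α y) y (hAs ha) (hAs hb) hab (by rw [dist_comm]; linarith) (by linarith)
  have t3 := hnet _ _ ha hb hab
  have t4 := hshort x y hx hy hxy
  rw [N929.dl_cons, N929.dl_cons, N929.dl_nil]
  simp only [hf] at t4
  simp only []
  rw [← t4]
  linear_combination t1 - t2 + t3

end Vale.Agent.P216.B7
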