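import Mathlib

/-!
# P216-B7, Z5: integrals of one-cocycles along paths (helper707)
-/

set_option linter.all false

open Set Topology unitInterval

namespace Vale.Agent.P216.B7H707

variable {k : Type} [Field k] {E : Type} [PseudoMetricSpace E]

/-- the cocycle condition at scale `ε` on `Y` -/
def Coc1 (Y : Set E) (ε : ℝ) (f : E → E → k) : Prop :=
  ∀ x ∈ Y, ∀ y ∈ Y, ∀ z ∈ Y, dist x y < ε → dist y z < ε → dist x z < ε → f x y + f y z = f x z

theorem Coc1.self {Y : Set E} {ε : ℝ} {f : E → E → k} (h : Coc1 Y ε f) (hε : 0 < ε) {x : E}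
    (hx : x ∈ Y) : f x x = 0 := by
  have := h x hx x hx x hx (by simpa) (by simpa) (by simpa)
  simpa using this

/-- a cocycle on a contractible compact space is a coboundary -/
theorem exact_of_contr {X : Type} [PseudoMetricSpace X] [CompactSpace X] (c : I × X → X)
    (hc : Continuous c) (p : X) (h0 : ∀ x, c (0, x) = p) (h1 : ∀ x, c (1, x) = x)
    {f : X → X → k} {ε : ℝ} (hε : 0 < ε) (hf : Coc1 univ ε f) :
    ∃ lam : X → k, ∃ δ > 0, ∀ x y, dist x y < δ → f x y = lam x - lam y := by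
  have hu := CompactSpace.uniformContinuous_of_continuous hc
  rw [Metric.uniformContinuous_iff] at hu
  obtain ⟨δ, hδ, hu⟩ := hu (ε / 2) (half_pos hε)
  obtain ⟨N, hN⟩ := exists_nat_one_div_lt hδ
  set P : ℕ → X → X := fun i x => c (Set.projIcc 0 1 zero_le_one ((i : ℝ) / (N + 1)), x) with hP
  have hP0 : ∀ x, P 0 x = p := by
    intro x
    rw [hP]
    simp only [Nat.cast_zero, zero_div]
    rw [Set.projIcc_left]
    exact h0 x
  have hP1 : ∀ x, P (N + 1) x = x := by
    intro x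
    rw [hP]
    simp only []
    have e : ((N + 1 : ℕ) : ℝ) / (N + 1) = 1 := by
      push_cast
      exact div_self (by positivity)
    rw [e, Set.projIcc_right]
    exact h1 x
  have hd1 : ∀ i x, dist (P i x) (P (i + 1) x) < ε / 2 := by
    intro i x
    refine hu ?_
    rw [Prod.dist_eq]
    refine max_lt ?_ (by simpa using hδ)
    refine lt_of_le_of_lt ?_ hN
    have h2 := (LipschitzWith.projIcc (zero_le_one : (0 : ℝ) ≤ 1)).dist_le_mul ((i : ℝ) / (N + 1))
      (((i + 1 : ℕ) : ℝ) / (N + 1))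
    rw [NNReal.coe_one, one_mul, Real.dist_eq] at h2
    refine h2.trans (le_of_eq ?_)
    rw [← sub_div, abs_div]
    push_cast
    rw [show (i : ℝ) - (i + 1) = -1 by ring, abs_neg, abs_one, abs_of_pos (by positivity)]
  have hd2 : ∀ i x y, dist x y < δ → dist (P i x) (P i y) < ε / 2 := by
    intro i x y hxy
    refine hu ?_
    rw [Prod.dist_eq]
    exact max_lt (by simpa using hδ) hxy
  refine ⟨fun x => -∑ i ∈ Finset.range (N + 1), f (P i x) (P (i + 1) x), δ, hδ, ?_⟩
  intro x y hxy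
  have key : ∀ n, ∑ i ∈ Finset.range n, f (P i x) (P (i + 1) x) + f (P n x) (P n y) =
      ∑ i ∈ Finset.range n, f (P i y) (P (i + 1) y) := by
    intro n
    induction n with
    | zero =>
      rw [Finset.sum_range_zero, Finset.sum_range_zero, hP0, hP0, hf.self hε (mem_univ _), zero_add]
    | succ n ih =>
      rw [Finset.sum_range_succ, Finset.sum_range_succ, ← ih]
      have a1 := hd1 n x
      have a2 := hd1 n y
      have a3 := hd2 n x y hxy
      have a4 := hd2 (n + 1) x y hxy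
      have a5 := dist_triangle (P n x) (P (n + 1) x) (P (n + 1) y)
      have e1 := hf _ (mem_univ (P n x)) _ (mem_univ (P (n + 1) x)) _ (mem_univ (P (n + 1) y))
        (by linarith) (by linarith) (by linarith)
      have e2 := hf _ (mem_univ (P n x)) _ (mem_univ (P n y)) _ (mem_univ (P (n + 1) y))
        (by linarith) (by linarith) (by linarith)
      linear_combination e1 - e2
  have h2 := key (N + 1)
  rw [hP1, hP1] at h2
  linear_combination h2

/-- `c` is the integral of `f` along `γ` -/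
def IsInt (f : E → E → k) (γ : I → E) (c : k) : Prop :=
  ∃ lam : I → k, ∃ δ > 0, (∀ s t, dist s t < δ → f (γ s) (γ t) = lam s - lam t) ∧
    c = lam 0 - lam 1

theorem IsInt.unique {f : E → E → k} {γ : I → E} {c c' : k} (h : IsInt f γ c)
    (h' : IsInt f γ c') : c = c' := by
  obtain ⟨l, δ, hδ, hl, rfl⟩ := h
  obtain ⟨l', δ', hδ', hl', rfl⟩ := h'
  have hloc : IsLocallyConstant fun s => l s - l' s := by
    rw [IsLocallyConstant.iff_eventually_eq]
    intro s
    have : ∀ᶠ t in 𝓝 s, dist t s < min δ δ' := Metric.ball_mem_nhds s (lt_min hδ hδ')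
    filter_upwards [this] with t ht
    have e1 := hl t s (ht.trans_le (min_le_left _ _))
    have e2 := hl' t s (ht.trans_le (min_le_right _ _))
    linear_combination e2 - e1
  have h1 := hloc.apply_eq_of_preconnectedSpace 0 1
  have h2 : l 0 - l' 0 = l 1 - l' 1 := h1
  linear_combination h2

/-- exactness of the pullback of a cocycle -/
theorem pull {X : Type} [PseudoMetricSpace X] [CompactSpace X] (c : I × X → X)
    (hc : Continuous c) (p : X) (h0 : ∀ x, c (0, x) = p) (h1 : ∀ x, c (1, x) = x) {Y : Set E}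
    {f : E → E → k} {ε : ℝ} (hε : 0 < ε) (hf : Coc1 Y ε f) {F : X → E} (hF : Continuous F)
    (hY : ∀ x, F x ∈ Y) :
    ∃ lam : X → k, ∃ δ > 0, ∀ x y, dist x y < δ → f (F x) (F y) = lam x - lam y := by
  have hu := CompactSpace.uniformContinuous_of_continuous hF
  rw [Metric.uniformContinuous_iff] at hu
  obtain ⟨δ, hδ, hu⟩ := hu ε hε
  exact exact_of_contr c hc p h0 h1 (f := fun x y => f (F x) (F y)) hδ
    fun x _ y _ z _ h1 h2 h3 => hf _ (hY x) _ (hY y) _ (hY z) (hu h1) (hu h2) (hu h3)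

theorem exists_isInt {Y : Set E} {f : E → E → k} {ε : ℝ} (hε : 0 < ε) (hf : Coc1 Y ε f)
    {γ : I → E} (hγ : Continuous γ) (hY : ∀ t, γ t ∈ Y) : ∃ c, IsInt f γ c := by
  obtain ⟨lam, δ, hδ, h⟩ := pull (fun p : I × I => p.1 * p.2) continuous_mul 0
    (fun x => zero_mul x) (fun x => one_mul x) hε hf hγ hY
  exact ⟨_, lam, δ, hδ, h, rfl⟩

/-- constant path -/
theorem isInt_const {Y : Set E} {f : E → E → k} {ε : ℝ} (hε : 0 < ε) (hf : Coc1 Y ε f) {x : E}
    (hx : x ∈ Y) : IsInt f (fun _ => x) 0 :=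
  ⟨fun _ => 0, 1, one_pos, fun _ _ _ => by rw [hf.self hε hx, sub_zero], by rw [sub_zero]⟩

/-- short path -/
theorem isInt_short {Y : Set E} {f : E → E → k} {ε : ℝ} (hε : 0 < ε) (hf : Coc1 Y ε f)
    {γ : I → E} (hY : ∀ t, γ t ∈ Y) (hs : ∀ s t, dist (γ s) (γ t) < ε) :
    IsInt f γ (f (γ 0) (γ 1)) := by
  refine ⟨fun s => f (γ s) (γ 1), 1, one_pos, fun s t _ => ?_, ?_⟩
  · have := hf _ (hY s) _ (hY t) _ (hY 1) (hs _ _) (hs _ _) (hs _ _)
    linear_combination this
  · simp only []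
    rw [hf.self hε (hY 1), sub_zero]

/-- the rule of the square -/
theorem isInt_square {Y : Set E} {f : E → E → k} {ε : ℝ} (hε : 0 < ε) (hf : Coc1 Y ε f)
    {F : I × I → E} (hF : Continuous F) (hY : ∀ p, F p ∈ Y) {a b c d : k}
    (ha : IsInt f (fun t => F (0, t)) a) (hb : IsInt f (fun s => F (s, 1)) b)
    (hc : IsInt f (fun s => F (s, 0)) c) (hd : IsInt f (fun t => F (1, t)) d) :
    a + b = c + d := by
  obtain ⟨lam, δ, hδ, h⟩ := pull (X := I × I) (fun p : I × (I × I) => (p.1 * p.2.1, p.1 * p.2.2))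
    (by fun_prop) (0, 0)
    (fun x => by simp only [zero_mul]) (fun x => by simp only [one_mul]) hε hf hF hY
  have e1 : a = lam (0, 0) - lam (0, 1) := ha.unique
    ⟨fun t => lam (0, t), δ, hδ, fun s t hst => h _ _ (by
      rw [Prod.dist_eq]; exact max_lt (by rw [dist_self]; exact hδ) hst), rfl⟩
  have e2 : b = lam (0, 1) - lam (1, 1) := hb.unique
    ⟨fun t => lam (t, 1), δ, hδ, fun s t hst => h _ _ (by
      rw [Prod.dist_eq]; exact max_lt hst (by rw [dist_self]; exact hδ)), rfl⟩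
  have e3 : c = lam (0, 0) - lam (1, 0) := hc.unique
    ⟨fun t => lam (t, 0), δ, hδ, fun s t hst => h _ _ (by
      rw [Prod.dist_eq]; exact max_lt hst (by rw [dist_self]; exact hδ)), rfl⟩
  have e4 : d = lam (1, 0) - lam (1, 1) := hd.unique
    ⟨fun t => lam (1, t), δ, hδ, fun s t hst => h _ _ (by
      rw [Prod.dist_eq]; exact max_lt (by rw [dist_self]; exact hδ) hst), rfl⟩
  rw [e1, e2, e3, e4]
  ring

/-- concatenation -/
theorem isInt_trans {Z : Type} [TopologicalSpace Z] {x y z : Z} (γ : Path x y) (γ' : Path y z)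
    (g : Z → E) {f : E → E → k} {a b c : k} (hc : IsInt f (fun t => g ((γ.trans γ') t)) c)
    (ha : IsInt f (fun t => g (γ t)) a) (hb : IsInt f (fun t => g (γ' t)) b) : c = a + b := by
  obtain ⟨lam, δ, hδ, h, rfl⟩ := hc
  have m1 : ∀ s : I, (s : ℝ) / 2 ∈ I := fun s => ⟨by have := s.2.1; linarith, by
    have := s.2.2; linarith⟩
  have m2 : ∀ s : I, (1 + (s : ℝ)) / 2 ∈ I := fun s => ⟨by have := s.2.1; linarith, by
    have := s.2.2; linarith⟩
  have t1 : ∀ s : I, (γ.trans γ') ⟨(s : ℝ) / 2, m1 s⟩ = γ s := by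
    intro s
    rw [Path.trans_apply, dif_pos (by have := s.2.2; simp only []; linarith)]
    congr 1
    exact Subtype.ext (by simp only []; ring)
  have t2 : ∀ s : I, (γ.trans γ') ⟨(1 + (s : ℝ)) / 2, m2 s⟩ = γ' s := by
    intro s
    rw [Path.trans_apply]
    split_ifs with h1
    · simp only [] at h1
      have hs : (s : ℝ) = 0 := le_antisymm (by linarith) s.2.1
      have hs' : s = 0 := Subtype.ext hs
      have e : (⟨2 * ((1 + (s : ℝ)) / 2), (unitInterval.mul_pos_mem_iff zero_lt_two).2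
          ⟨(m2 s).1, h1⟩⟩ : I) = 1 := Subtype.ext (by simp only [hs]; norm_num)
      rw [e, γ.target, hs', γ'.source]
    · congr 1
      exact Subtype.ext (by simp only []; ring)
  have e1 : a = lam ⟨((0 : I) : ℝ) / 2, m1 0⟩ - lam ⟨((1 : I) : ℝ) / 2, m1 1⟩ := ha.unique
    ⟨fun s => lam ⟨(s : ℝ) / 2, m1 s⟩, δ, hδ, fun s t hst => by
      have := h ⟨(s : ℝ) / 2, m1 s⟩ ⟨(t : ℝ) / 2, m1 t⟩ (by
        rw [Subtype.dist_eq, Real.dist_eq] at hst ⊢
        simp only []
        rw [← sub_div, abs_div, abs_two]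
        have := abs_nonneg ((s : ℝ) - t)
        linarith)
      simp only [] at this
      rw [t1, t1] at this
      exact this, rfl⟩
  have e2 : b = lam ⟨(1 + ((0 : I) : ℝ)) / 2, m2 0⟩ - lam ⟨(1 + ((1 : I) : ℝ)) / 2, m2 1⟩ :=
    hb.unique ⟨fun s => lam ⟨(1 + (s : ℝ)) / 2, m2 s⟩, δ, hδ, fun s t hst => by
      have := h ⟨(1 + (s : ℝ)) / 2, m2 s⟩ ⟨(1 + (t : ℝ)) / 2, m2 t⟩ (by
        rw [Subtype.dist_eq, Real.dist_eq] at hst ⊢
        simp only []
        rw [← sub_div, abs_div, abs_two]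
        have := abs_nonneg ((s : ℝ) - t)
        rw [show (1 + (s : ℝ)) - (1 + (t : ℝ)) = s - t by ring]
        linarith)
      simp only [] at this
      rw [t2, t2] at this
      exact this, rfl⟩
  have q1 : (⟨((0 : I) : ℝ) / 2, m1 0⟩ : I) = 0 := Subtype.ext (by simp)
  have q2 : (⟨((1 : I) : ℝ) / 2, m1 1⟩ : I) = ⟨(1 + ((0 : I) : ℝ)) / 2, m2 0⟩ :=
    Subtype.ext (by simp)
  have q3 : (⟨(1 + ((1 : I) : ℝ)) / 2, m2 1⟩ : I) = 1 := Subtype.ext (by simp)
  rw [e1, e2, q1, q2, q3]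
  ring

end Vale.Agent.P216.B7H707
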