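import Vale.Agent.P216.B7.Props
import Vale.Agent.P216.B7H707.Int

/-!
# P216-B7, Z5: short segments of the infinite cyclic covering (helper707)
-/

set_option linter.all false

open Set Topology unitInterval

namespace Vale.Agent.P216.B7H707

open Vale.Agent.P216.B7 Vale.Agent.P216 Vale.Agent.P216.Sl Vale.Agent.P216.PS

variable {M : Type} [MetricSpace M]

theorem cont_coe : Continuous (fun z : Circle => (z : ℂ)) := continuous_subtype_val

/-- the lift of the circle coordinate of `z` near `p` -/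
noncomputable def lf (h : C(M, Circle)) (p : M × ℝ) (z : M) : ℝ :=
  p.2 + Complex.arg ((h z / h p.1 : Circle) : ℂ) / (2 * Real.pi)

theorem ex_add (a b : ℝ) : ex (a + b) = ex a * ex b := by
  rw [ex, ex, ex, mul_add, Circle.exp_add]

theorem ex_lf (h : C(M, Circle)) {p : M × ℝ} (hp : p ∈ Xt h) (z : M) : ex (lf h p z) = h z := by
  have h1 : h p.1 = ex p.2 := hp
  have h2 : ex (Complex.arg ((h z / h p.1 : Circle) : ℂ) / (2 * Real.pi)) = h z / h p.1 := by
    rw [ex, mul_div_cancel₀ _ (by positivity : (2 * Real.pi) ≠ 0)]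
    exact Circle.exp_arg _
  rw [lf, ex_add, ← h1, h2, mul_div_cancel]

theorem ex_inj {a b : ℝ} (h : ex a = ex b) (hab : |a - b| < 1) : a = b := by
  rw [ex, ex, Circle.exp_eq_exp] at h
  obtain ⟨m, hm⟩ := h
  have hpi : (0 : ℝ) < 2 * Real.pi := by positivity
  have h1 : a - b = m := by
    have : (2 * Real.pi) * (a - b) = (2 * Real.pi) * m := by linear_combination hm
    exact mul_left_cancel₀ hpi.ne' this
  rw [h1] at hab
  have h2 : |m| < 1 := by exact_mod_cast hab
  have h3 : m = 0 := Int.abs_lt_one_iff.1 h2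
  rw [h3] at h1
  push_cast at h1
  linarith

theorem near [CompactSpace M] (h : C(M, Circle)) {η : ℝ} (hη : 0 < η) :
    ∃ δ > 0, ∀ z z' : M, dist z z' < δ → |Complex.arg ((h z / h z' : Circle) : ℂ)| < η := by
  have h1 : ContinuousAt Complex.arg 1 := Complex.continuousAt_arg Complex.one_mem_slitPlane
  rw [Metric.continuousAt_iff] at h1
  obtain ⟨δ', hδ', h1⟩ := h1 η hη
  have hc : Continuous fun p : M × M => ((h p.1 / h p.2 : Circle) : ℂ) := by
    have a1 : Continuous fun p : M × M => h p.1 := h.continuous.comp continuous_fst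
    have a2 : Continuous fun p : M × M => h p.2 := h.continuous.comp continuous_snd
    exact cont_coe.comp (a1.div' a2)
  have hu := CompactSpace.uniformContinuous_of_continuous hc
  rw [Metric.uniformContinuous_iff] at hu
  obtain ⟨δ, hδ, hu⟩ := hu δ' hδ'
  refine ⟨δ, hδ, fun z z' hz => ?_⟩
  have h2 := hu (a := (z, z')) (b := (z', z')) (by
    rw [Prod.dist_eq]
    exact max_lt hz (by rw [dist_self]; exact hδ))
  simp only [div_self', Circle.coe_one] at h2
  have h3 := h1 h2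
  rwa [Complex.arg_one, Real.dist_eq, sub_zero] at h3

/-- the short segment -/
noncomputable def sp (h : C(M, Circle)) (p q : M × ℝ) (t : I) : M × ℝ :=
  (LS.seg p.1 q.1 t, lf h p (LS.seg p.1 q.1 t))

/-- the cone over a short segment -/
noncomputable def Fa (h : C(M, Circle)) (a x y : M × ℝ) (st : I × I) : M × ℝ :=
  (LS.seg a.1 (LS.seg x.1 y.1 st.1) st.2, lf h a (LS.seg a.1 (LS.seg x.1 y.1 st.1) st.2))

theorem lf_self (h : C(M, Circle)) (p : M × ℝ) : lf h p p.1 = p.2 := by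
  rw [lf, div_self']
  simp

theorem continuous_lf {T : Type} [TopologicalSpace T] (h : C(M, Circle)) (p : M × ℝ) {v : T → M}
    (hv : Continuous v) (hs : ∀ t, |Complex.arg ((h (v t) / h p.1 : Circle) : ℂ)| < Real.pi) :
    Continuous fun t => lf h p (v t) := by
  have hc : Continuous fun t => ((h (v t) / h p.1 : Circle) : ℂ) :=
    cont_coe.comp ((h.continuous.comp hv).div' continuous_const)
  have h1 : Continuous fun t => Complex.arg ((h (v t) / h p.1 : Circle) : ℂ) := by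
    rw [continuous_iff_continuousAt]
    intro t
    have h2 : ContinuousAt Complex.arg ((h (v t) / h p.1 : Circle) : ℂ) := by
      apply Complex.continuousAt_arg
      rw [Complex.mem_slitPlane_iff_arg]
      exact ⟨fun e => absurd (hs t) (by rw [e, abs_of_pos Real.pi_pos]; exact lt_irrefl _),
        Circle.coe_ne_zero _⟩
    exact ContinuousAt.comp (g := Complex.arg) (f := fun t => ((h (v t) / h p.1 : Circle) : ℂ)) h2
      hc.continuousAt
  exact continuous_const.add (h1.div_const _)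

section geo

variable [CompactSpace M] {ρ ρ₁ : ℝ} {h : C(M, Circle)}

theorem continuous_Fa (hS : LS.UniqSeg M ρ) (hρ : ρ₁ ≤ ρ)
    (hn : ∀ z z' : M, dist z z' < ρ₁ → |Complex.arg ((h z / h z' : Circle) : ℂ)| < Real.pi / 4)
    {a x y : M × ℝ} (hxy : dist x.1 y.1 < ρ₁ / 2) (hax : dist a.1 x.1 < ρ₁ / 2) :
    Continuous (Fa h a x y) ∧ (∀ st, |(Fa h a x y st).2 - a.2| < 1 / 8) ∧
      ∀ s : I, dist x.1 (LS.seg x.1 y.1 s) < ρ₁ / 2 ∧ dist a.1 (LS.seg x.1 y.1 s) < ρ₁ := by
  have hρ₁ : 0 < ρ₁ := by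
    have := dist_nonneg (x := x.1) (y := y.1)
    linarith
  have hxy' : dist x.1 y.1 < ρ := by linarith
  have hu : Continuous fun s : I => LS.seg x.1 y.1 s :=
    (LS.continuousOn_seg hS).comp_continuous (f := fun s : I => (x.1, y.1, (s : ℝ)))
      (by fun_prop) fun s => ⟨hxy', s.2⟩
  have hd1 : ∀ s : I, dist x.1 (LS.seg x.1 y.1 s) < ρ₁ / 2 := by
    intro s
    rw [LS.dist_left_seg hS hxy' s.2]
    exact (mul_le_of_le_one_left dist_nonneg s.2.2).trans_lt hxy
  have hd2 : ∀ s : I, dist a.1 (LS.seg x.1 y.1 s) < ρ₁ := by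
    intro s
    have := dist_triangle a.1 x.1 (LS.seg x.1 y.1 s)
    have := hd1 s
    linarith
  have hv : Continuous fun st : I × I => LS.seg a.1 (LS.seg x.1 y.1 st.1) st.2 :=
    (LS.continuousOn_seg hS).comp_continuous
      (f := fun st : I × I => (a.1, LS.seg x.1 y.1 st.1, (st.2 : ℝ)))
      (continuous_const.prodMk ((hu.comp continuous_fst).prodMk
        (continuous_subtype_val.comp continuous_snd)))
      fun st => ⟨(hd2 st.1).trans_le hρ, st.2.2⟩
  have hd3 : ∀ st : I × I, dist (LS.seg a.1 (LS.seg x.1 y.1 st.1) st.2) a.1 < ρ₁ := by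
    intro st
    rw [dist_comm, LS.dist_left_seg hS ((hd2 st.1).trans_le hρ) st.2.2]
    exact (mul_le_of_le_one_left dist_nonneg st.2.2.2).trans_lt (hd2 st.1)
  refine ⟨?_, ?_, fun s => ⟨hd1 s, hd2 s⟩⟩
  · refine hv.prodMk (continuous_lf h a hv fun st => ?_)
    have := hn _ _ (hd3 st)
    have := Real.pi_pos
    linarith
  · intro st
    have h1 := hn _ _ (hd3 st)
    have h2 : (Fa h a x y st).2 - a.2 = Complex.arg
        ((h (LS.seg a.1 (LS.seg x.1 y.1 st.1) st.2) / h a.1 : Circle) : ℂ) / (2 * Real.pi) := by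
      simp only [Fa, lf]
      ring
    rw [h2, abs_div, abs_of_pos (by positivity : (0 : ℝ) < 2 * Real.pi),
      div_lt_iff₀ (by positivity)]
    linarith

theorem sp_facts (hS : LS.UniqSeg M ρ) (hρ : ρ₁ ≤ ρ)
    (hn : ∀ z z' : M, dist z z' < ρ₁ → |Complex.arg ((h z / h z' : Circle) : ℂ)| < Real.pi / 4)
    {x y : M × ℝ} (hxy : dist x.1 y.1 < ρ₁ / 2) :
    Continuous (sp h x y) ∧ ∀ t, |(sp h x y t).2 - x.2| < 1 / 8 := by
  have hρ₁ : 0 < ρ₁ := by
    have := dist_nonneg (x := x.1) (y := y.1)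
    linarith
  obtain ⟨h1, h2, -⟩ := continuous_Fa (h := h) hS hρ hn (a := x) (x := y) (y := y)
    (by rw [dist_self]; linarith) hxy
  have e : ∀ t, sp h x y t = Fa h x y y (0, t) := by
    intro t
    simp only [sp, Fa, Set.Icc.coe_zero, LS.seg_zero]
  refine ⟨?_, fun t => by rw [e]; exact h2 _⟩
  rw [show sp h x y = fun t => Fa h x y y (0, t) from funext e]
  exact h1.comp (by fun_prop)

theorem sp_mem (h : C(M, Circle)) {x : M × ℝ} (hx : x ∈ Xt h) (y : M × ℝ) (t : I) :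
    sp h x y t ∈ Xt h := (ex_lf h hx _).symm

theorem sp_zero (h : C(M, Circle)) (x y : M × ℝ) : sp h x y 0 = x := by
  simp only [sp, Set.Icc.coe_zero, LS.seg_zero, lf_self]

theorem sp_one
    (hn : ∀ z z' : M, dist z z' < ρ₁ → |Complex.arg ((h z / h z' : Circle) : ℂ)| < Real.pi / 4)
    {x y : M × ℝ} (hx : x ∈ Xt h) (hy : y ∈ Xt h) (hxy : dist x.1 y.1 < ρ₁)
    (h2 : |x.2 - y.2| < 1 / 4) : sp h x y 1 = y := by
  simp only [sp, Set.Icc.coe_one, LS.seg_one]
  refine Prod.ext rfl ?_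
  simp only []
  refine ex_inj ((ex_lf h hx _).trans hy) ?_
  have h3 := hn y.1 x.1 (by rwa [dist_comm])
  have h4 : lf h x y.1 - y.2 = (x.2 - y.2) +
      Complex.arg ((h y.1 / h x.1 : Circle) : ℂ) / (2 * Real.pi) := by
    rw [lf]; ring
  have h5 : |Complex.arg ((h y.1 / h x.1 : Circle) : ℂ) / (2 * Real.pi)| < 1 / 8 := by
    rw [abs_div, abs_of_pos (by positivity : (0 : ℝ) < 2 * Real.pi), div_lt_iff₀ (by positivity)]
    linarith
  rw [h4]
  refine (abs_add_le _ _).trans_lt ?_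
  linarith

/-- the sides of the cone -/
theorem Fa_sides (hS : LS.UniqSeg M ρ) (hρ : ρ₁ ≤ ρ)
    (hn : ∀ z z' : M, dist z z' < ρ₁ → |Complex.arg ((h z / h z' : Circle) : ℂ)| < Real.pi / 4)
    {a x y : M × ℝ} (ha : a ∈ Xt h) (hx : x ∈ Xt h) (hxy : dist x.1 y.1 < ρ₁ / 2)
    (hax : dist a.1 x.1 < ρ₁ / 2) (h2 : |a.2 - x.2| < 1 / 4) :
    (∀ t, Fa h a x y (0, t) = sp h a x t) ∧ (∀ t, Fa h a x y (1, t) = sp h a y t) ∧
    (∀ s, Fa h a x y (s, 0) = a) ∧ ∀ s, Fa h a x y (s, 1) = sp h x y s := by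
  obtain ⟨-, h3, h4⟩ := continuous_Fa (h := h) hS hρ hn hxy hax
  refine ⟨fun t => ?_, fun t => ?_, fun s => ?_, fun s => ?_⟩
  · simp only [sp, Fa, Set.Icc.coe_zero, LS.seg_zero]
  · simp only [sp, Fa, Set.Icc.coe_one, LS.seg_one]
  · simp only [Fa, Set.Icc.coe_zero, LS.seg_zero, lf_self]
  · have h5 := h3 (s, 1)
    simp only [sp, Fa, Set.Icc.coe_one, LS.seg_one] at h5 ⊢
    refine Prod.ext rfl ?_
    simp only []
    refine ex_inj ((ex_lf h ha _).trans (ex_lf h hx _).symm) ?_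
    have h6 : |lf h x (LS.seg x.1 y.1 s) - x.2| < 1 / 8 := (sp_facts (h := h) hS hρ hn hxy).2 s
    have h7 : lf h a (LS.seg x.1 y.1 s) - lf h x (LS.seg x.1 y.1 s) =
        (lf h a (LS.seg x.1 y.1 s) - a.2) + ((a.2 - x.2) - (lf h x (LS.seg x.1 y.1 s) - x.2)) := by
      ring
    rw [h7]
    refine (abs_add_le _ _).trans_lt ?_
    have h8 := abs_sub (a.2 - x.2) (lf h x (LS.seg x.1 y.1 s) - x.2)
    linarith

end geo

end Vale.Agent.P216.B7H707
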